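import Vale.Agent.P133.GapPair

open Vale.Agent.P133

universe u

/-- In a purely infinite algebra the diagonalisation condition of strong pure infiniteness holds
for every pair `x, y` for which the single element `y x² y` (cut-downs of `x, y` allowed) has, at
arbitrarily small levels, two levels `t < t'` whose cut-downs are Cuntz equivalent. -/
theorem Vale.Agent.Results.P133.GapPair.result :
    ∀ (A : Type u) [NonUnitalCStarAlgebra A] [PartialOrder A] [StarOrderedRing A],
      IsPurelyInfinite A → ∀ x y : A, 0 ≤ x → 0 ≤ y →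
        (∀ δ : ℝ, 0 < δ → ∃ a b t t' : ℝ, 0 ≤ a ∧ a ≤ δ ∧ 0 ≤ b ∧ b ≤ δ ∧ 0 < t ∧ t < t' ∧
          t' ≤ δ ∧ CuntzLE (posCut t (posCut b y * (posCut a x * posCut a x) * posCut b y))
            (posCut t' (posCut b y * (posCut a x * posCut a x) * posCut b y))) →
        ∀ ε : ℝ, 0 < ε → ∃ s t : A, ‖star s * (x * x) * s - x * x‖ < ε ∧
          ‖star t * (y * y) * t - y * y‖ < ε ∧ ‖star s * (x * y) * t‖ < ε := by
  intro A _ _ _ hA x y hx hy hG ε hε
  exact pair_gap hA hx hy hG hε
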