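import Vale.Agent.P133.Final

open Vale.Agent.P133

universe u

/-- In a purely infinite algebra the diagonalisation condition of strong pure infiniteness holds
for every pair one of whose entries has its ideal generated by projections below it. -/
theorem Vale.Agent.Results.P133.ProjectionSide.result :
    ∀ (A : Type u) [NonUnitalCStarAlgebra A] [PartialOrder A] [StarOrderedRing A],
      IsPurelyInfinite A → ∀ x y : A, 0 ≤ x → 0 ≤ y →
        ((∀ δ : ℝ, 0 < δ → ∃ p : A, IsStarProjection p ∧ CuntzLE p y ∧ CuntzLE (posCut δ y) p) ∨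
          (∀ δ : ℝ, 0 < δ → ∃ p : A, IsStarProjection p ∧ CuntzLE p x ∧ CuntzLE (posCut δ x) p)) →
        ∀ ε : ℝ, 0 < ε → ∃ s t : A, ‖star s * (x * x) * s - x * x‖ < ε ∧
          ‖star t * (y * y) * t - y * y‖ < ε ∧ ‖star s * (x * y) * t‖ < ε := by
  intro A _ _ _ hA x y hx hy hP ε hε
  rcases hP with hP | hP
  · exact pair_right hA hx hy hP hε
  · obtain ⟨s, t, h1, h2, h3⟩ := pair_right hA hy hx hP hε
    refine ⟨t, s, h2, h1, ?_⟩
    rw [← norm_star]
    simpa only [star_mul, star_star, hx.isSelfAdjoint.star_eq, hy.isSelfAdjoint.star_eq,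
      mul_assoc] using h3
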